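import Mathlib
import Vale.Agent.H50.BinPack.Defs
import Vale.Agent.H50.BinPack.Basic

/-!
# Upper bounds for the configuration LP from explicit fractional solutions (P302)

`LP_le_total`     : every fractional solution bounds `LP I` from above.
`LP_le_of_fracSol`: the same for a solution with rational weights, hypotheses stated in `ℚ`.
`LP_le_of_cert`   : an integer certificate, checked by the boolean function `lpCheck`
                    (integer arithmetic only, so it can be evaluated by `decide`).
-/

namespace Vale.Agent.H25.BP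

open Vale.Agent.H50.BinPack

/-- Every fractional solution bounds the LP value from above. -/
theorem LP_le_total (I : List ℚ) (z : List (List ℚ × ℝ)) (hz : IsFracSol I z) :
    LP I ≤ (z.map Prod.snd).sum := by
  refine csInf_le ⟨0, ?_⟩ ⟨z, hz, rfl⟩
  rintro t ⟨z', hz', rfl⟩
  refine List.sum_nonneg ?_
  intro x hx
  obtain ⟨p, hp, rfl⟩ := List.mem_map.1 hx
  exact (hz'.1 p hp).2

theorem cast_cover (z : List (List ℚ × ℚ)) (s : ℚ) :
    ((z.map fun p => (p.1, (p.2 : ℝ))).map (fun p => p.2 * ((p.1.count s : ℕ) : ℝ))).sum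
      = (((z.map fun p => p.2 * ((p.1.count s : ℕ) : ℚ)).sum : ℚ) : ℝ) := by
  induction z with
  | nil => simp
  | cons p z ih =>
    simp only [List.map_cons, List.sum_cons, ih]
    push_cast
    ring

theorem cast_total (z : List (List ℚ × ℚ)) :
    ((z.map fun p => (p.1, (p.2 : ℝ))).map Prod.snd).sum
      = (((z.map Prod.snd).sum : ℚ) : ℝ) := by
  induction z with
  | nil => simp
  | cons p z ih =>
    simp only [List.map_cons, List.sum_cons, ih]
    push_cast
    ring

/-- A fractional solution with rational weights (all hypotheses in `ℚ`) bounds `LP I`. -/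
theorem LP_le_of_fracSol (I : List ℚ) (z : List (List ℚ × ℚ)) (v : ℚ)
    (hcfg : ∀ p ∈ z, (∀ s ∈ p.1, s ∈ I) ∧ p.1.sum ≤ 1 ∧ 0 ≤ p.2)
    (hcov : ∀ s ∈ I, ((I.count s : ℕ) : ℚ) ≤ (z.map fun p => p.2 * ((p.1.count s : ℕ) : ℚ)).sum)
    (htot : (z.map Prod.snd).sum ≤ v) : LP I ≤ (v : ℝ) := by
  have hz : IsFracSol I (z.map fun p => (p.1, (p.2 : ℝ))) := by
    constructor
    · intro p hp
      obtain ⟨q, hq, rfl⟩ := List.mem_map.1 hp
      obtain ⟨h1, h2, h3⟩ := hcfg q hq
      refine ⟨⟨h1, h2⟩, ?_⟩
      show (0 : ℝ) ≤ ((q.2 : ℚ) : ℝ)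
      exact_mod_cast h3
    · intro s hs
      have h := hcov s hs
      rw [cast_cover]
      exact_mod_cast h
  have h1 := LP_le_total I _ hz
  rw [cast_total] at h1
  exact h1.trans (by exact_mod_cast htot)

/-! ### Integer certificates -/

/-- Total (integer) weight with which the configurations `cfgs` cover the numerator `a`. -/
def lpCover (cfgs : List (List ℤ × ℕ)) (a : ℤ) : ℕ :=
  (cfgs.map fun p => p.2 * p.1.count a).sum

/-- Certificate check.  Item sizes are `a / N` for the numerators `a` in `items`; a configuration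
is a list of numerators occurring in `items` with sum at most `N`, and carries the weight
`m / W`.  Checked: every item is covered with total weight at least its multiplicity, and the
total weight is at most `V / W`. -/
def lpCheck (N : ℕ) (items : List ℤ) (W : ℕ) (cfgs : List (List ℤ × ℕ)) (V : ℕ) : Bool :=
  decide (0 < N) && decide (0 < W) &&
    cfgs.all (fun p => p.1.all (fun a => items.contains a) && decide (p.1.sum ≤ (N : ℤ))) &&
    items.all (fun a => decide (W * items.count a ≤ lpCover cfgs a)) &&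
    decide ((cfgs.map Prod.snd).sum ≤ V)

theorem sum_map_div (c : List ℤ) (N : ℕ) :
    (c.map fun a : ℤ => (a : ℚ) / N).sum = ((c.sum : ℤ) : ℚ) / N := by
  induction c with
  | nil => simp
  | cons a c ih =>
    simp only [List.map_cons, List.sum_cons, ih]
    push_cast
    ring

theorem size_injective (N : ℕ) (hN : 0 < N) :
    Function.Injective (fun a : ℤ => (a : ℚ) / N) := by
  intro a b hab
  have hN' : (N : ℚ) ≠ 0 := by exact_mod_cast hN.ne'
  have h : (a : ℚ) = b := by
    have := congrArg (fun t : ℚ => t * N) hab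
    simpa [div_mul_cancel₀, hN'] using this
  exact_mod_cast h

theorem cert_cover (N : ℕ) (hN : 0 < N) (W : ℕ) (cfgs : List (List ℤ × ℕ)) (a : ℤ) :
    ((cfgs.map fun p => (p.1.map fun a : ℤ => (a : ℚ) / N, (p.2 : ℚ) / W)).map
        fun p => p.2 * ((p.1.count ((a : ℚ) / N) : ℕ) : ℚ)).sum
      = ((lpCover cfgs a : ℕ) : ℚ) / W := by
  unfold lpCover
  induction cfgs with
  | nil => simp
  | cons p z ih =>
    simp only [List.map_cons, List.sum_cons, ih]
    have e : (p.1.map fun a : ℤ => (a : ℚ) / N).count ((a : ℚ) / N) = p.1.count a :=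
      List.count_map_of_injective p.1 (fun a : ℤ => (a : ℚ) / N) (size_injective N hN) a
    rw [e]
    push_cast
    ring

theorem cert_total (N : ℕ) (W : ℕ) (cfgs : List (List ℤ × ℕ)) :
    ((cfgs.map fun p => (p.1.map fun a : ℤ => (a : ℚ) / N, (p.2 : ℚ) / W)).map Prod.snd).sum
      = (((cfgs.map Prod.snd).sum : ℕ) : ℚ) / W := by
  induction cfgs with
  | nil => simp
  | cons p z ih =>
    simp only [List.map_cons, List.sum_cons, ih]
    push_cast
    ring

/-- **Integer LP certificate.**  If `lpCheck N items W cfgs V = true` then the configuration LP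
of the instance with sizes `a / N` (`a` in `items`) has value at most `V / W`. -/
theorem LP_le_of_cert (N : ℕ) (items : List ℤ) (W V : ℕ) (cfgs : List (List ℤ × ℕ))
    (h : lpCheck N items W cfgs V = true) :
    LP (items.map fun a : ℤ => (a : ℚ) / N) ≤ (V : ℝ) / W := by
  simp only [lpCheck, Bool.and_eq_true, decide_eq_true_eq, List.all_eq_true] at h
  obtain ⟨⟨⟨⟨hN, hW⟩, hcfg⟩, hcov⟩, htot⟩ := h
  have hN' : (0 : ℚ) < N := by exact_mod_cast hN
  have hW' : (0 : ℚ) < W := by exact_mod_cast hW
  have key := LP_le_of_fracSol (items.map fun a : ℤ => (a : ℚ) / N)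
    (cfgs.map fun p => (p.1.map fun a : ℤ => (a : ℚ) / N, (p.2 : ℚ) / W)) ((V : ℚ) / W) ?_ ?_ ?_
  · have e : (((V : ℚ) / W : ℚ) : ℝ) = (V : ℝ) / W := by push_cast; ring
    rw [e] at key
    exact key
  · intro q hq
    obtain ⟨p, hp, rfl⟩ := List.mem_map.1 hq
    obtain ⟨h1, h2⟩ := hcfg p hp
    refine ⟨?_, ?_, ?_⟩
    · intro s hs
      obtain ⟨a, ha, rfl⟩ := List.mem_map.1 hs
      have := h1 a ha
      exact List.mem_map.2 ⟨a, by simpa using this, rfl⟩
    · show (p.1.map fun a : ℤ => (a : ℚ) / N).sum ≤ 1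
      rw [sum_map_div, div_le_one hN']
      exact_mod_cast h2
    · show (0 : ℚ) ≤ (p.2 : ℚ) / W
      positivity
  · intro s hs
    obtain ⟨a, ha, rfl⟩ := List.mem_map.1 hs
    rw [cert_cover N hN W cfgs a,
      List.count_map_of_injective items (fun a : ℤ => (a : ℚ) / N) (size_injective N hN) a,
      le_div_iff₀ hW']
    have := hcov a ha
    have h2 : ((W * items.count a : ℕ) : ℚ) ≤ ((lpCover cfgs a : ℕ) : ℚ) := by exact_mod_cast this
    push_cast at h2
    linarith
  · rw [cert_total, div_le_div_iff_of_pos_right hW']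
    exact_mod_cast htot

/-- A tiny sanity example: three items of size `1/3` have LP value at most `1`. -/
example : LP ([1, 1, 1].map fun a : ℤ => (a : ℚ) / (3 : ℕ)) ≤ ((1 : ℕ) : ℝ) / (1 : ℕ) :=
  LP_le_of_cert 3 [1, 1, 1] 1 1 [([1, 1, 1], 1)] (by decide)

end Vale.Agent.H25.BP
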